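import Vale.Agent.P247.H710.PU
import Mathlib.Geometry.Manifold.PartitionOfUnity

/-!
# P247, layer C: gluing local sections of a periodic family of convex sets
-/

open scoped ContDiff Topology Manifold
open Set MeasureTheory Filter Metric

noncomputable section

namespace Vale.Agent.P247.H383.VF

open Vale.Agent.P247.H74 Vale.Agent.P247.H574 Vale.Agent.P247.H710

theorem tr_smooth (k : Fin 4 → ℤ) : ContDiff ℝ ∞ (fun x : R4 => tr k x) := by
  have : (fun x : R4 => tr k x) = fun x => x + fun i => (k i : ℝ) := by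
    funext x; exact tr_sub k x
  rw [this]
  exact contDiff_id.add contDiff_const

/-- periodisation -/
theorem periodise {t : R4 → Set R4} (hconv : ∀ x, Convex ℝ (t x))
    (htr : ∀ (k : Fin 4 → ℤ) x, t (tr k x) = t x) {V₀ : R4 → R4} (hV₀ : ContDiff ℝ ∞ V₀)
    (ht : ∀ x, V₀ x ∈ t x) :
    ∃ V : R4 → R4, ContDiff ℝ ∞ V ∧ (∀ (k : Fin 4 → ℤ) x, V (tr k x) = V x) ∧
      ∀ x, V x ∈ t x := by
  classical
  -- local finiteness
  have hfin : ∀ x₀ : R4, ∃ s : Finset (Fin 4 → ℤ), ∀ x ∈ ball x₀ 1, ∀ k ∉ s,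
      bet (tr k x) = 0 := by
    intro x₀
    obtain ⟨s, -, hs⟩ := exists_window (closedBall x₀ 1 ∪ closedBall 0 1)
      (isBounded_closedBall.union isBounded_closedBall)
    refine ⟨s, fun x hx k hk => ?_⟩
    by_contra hne
    apply hk
    refine hs k x (Or.inl (ball_subset_closedBall hx)) (Or.inr ?_)
    rw [mem_closedBall_zero_iff]
    by_contra hcon
    push Not at hcon
    exact hne (bet_zero_of hcon.le)
  set V : R4 → R4 := fun x => ∑' k : Fin 4 → ℤ, bet (tr k x) • V₀ (tr k x) with hV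
  have hVs : ∀ x₀ : R4, ∃ s : Finset (Fin 4 → ℤ), ∀ x ∈ ball x₀ 1,
      V x = ∑ k ∈ s, bet (tr k x) • V₀ (tr k x) ∧ ∑ k ∈ s, bet (tr k x) = 1 := by
    intro x₀
    obtain ⟨s, hs⟩ := hfin x₀
    refine ⟨s, fun x hx => ⟨?_, ?_⟩⟩
    · exact tsum_eq_sum fun k hk => by rw [hs x hx k hk, zero_smul]
    · exact (hasSum_sum_of_ne_finset_zero fun k hk => hs x hx k hk).unique (hasSum_bet x)
  refine ⟨V, ?_, ?_, ?_⟩
  · rw [contDiff_iff_contDiffAt]
    intro x₀
    obtain ⟨s, hs⟩ := hVs x₀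
    have h1 : ContDiff ℝ ∞ (fun x => ∑ k ∈ s, bet (tr k x) • V₀ (tr k x)) :=
      ContDiff.sum fun k _ => (bet_smooth.comp (tr_smooth k)).smul (hV₀.comp (tr_smooth k))
    refine h1.contDiffAt.congr_of_eventuallyEq ?_
    filter_upwards [ball_mem_nhds x₀ one_pos] with x hx
    exact (hs x hx).1
  · intro k x
    show ∑' l : Fin 4 → ℤ, bet (tr l (tr k x)) • V₀ (tr l (tr k x)) = _
    have h1 : (fun l : Fin 4 → ℤ => bet (tr l (tr k x)) • V₀ (tr l (tr k x))) =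
        fun l => (fun j : Fin 4 → ℤ => bet (tr j x) • V₀ (tr j x)) (l + k) := by
      funext l
      simp only [tr_tr]
    rw [h1]
    exact (Equiv.addRight k).tsum_eq (fun j : Fin 4 → ℤ => bet (tr j x) • V₀ (tr j x))
  · intro x
    obtain ⟨s, hs⟩ := hVs x
    obtain ⟨h1, h2⟩ := hs x (mem_ball_self one_pos)
    rw [h1]
    refine (hconv x).sum_mem (fun k _ => bet_nonneg _) h2 fun k _ => ?_
    rw [← htr k x]
    exact ht _

/-- gluing -/
theorem glue {t : R4 → Set R4} (hconv : ∀ x, Convex ℝ (t x))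
    (htr : ∀ (k : Fin 4 → ℤ) x, t (tr k x) = t x)
    (hloc : ∀ x, ∃ U ∈ 𝓝 x, ∃ g : R4 → R4, ContDiffOn ℝ ∞ g U ∧ ∀ y ∈ U, g y ∈ t y) :
    ∃ V : R4 → R4, ContDiff ℝ ∞ V ∧ (∀ (k : Fin 4 → ℤ) x, V (tr k x) = V x) ∧
      ∀ x, V x ∈ t x := by
  obtain ⟨g, hg⟩ := exists_contMDiffMap_forall_mem_convex_of_local (n := (⊤ : ℕ∞)) 𝓘(ℝ, R4)
    (t := t) hconv fun x => by
      obtain ⟨U, hU, g, hgs, hgt⟩ := hloc x
      exact ⟨U, hU, g, hgs.contMDiffOn, hgt⟩
  exact periodise hconv htr (contMDiff_iff_contDiff.1 g.contMDiff) hg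

end Vale.Agent.P247.H383.VF
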