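import Vale.Agent.P247.H710.Geo
import Vale.Agent.P247.H558.VF.Dist
import Vale.Agent.P247.H558.VF.Reg
import Vale.Agent.P247.H74.CE.OmL

/-!
# P247, layer C: smooth left inverses of immersed discs
-/

open scoped ContDiff Topology
open Set MeasureTheory Filter Metric

noncomputable section

namespace Vale.Agent.P247.H383.VF

open Vale.Agent.P247.H74 Vale.Agent.P247.H574 Vale.Agent.P247.H710

/-- an injective real linear endomorphism of `ℂ` is an equivalence -/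
theorem exists_equiv (L : ℂ →L[ℝ] ℂ) (hL : Function.Injective L) :
    ∃ e : ℂ ≃L[ℝ] ℂ, (e : ℂ →L[ℝ] ℂ) = L := by
  refine ⟨(LinearEquiv.ofInjectiveEndo L.toLinearMap hL).toContinuousLinearEquiv, ?_⟩
  ext; rfl

/-- a smooth local left inverse of an immersion -/
theorem exists_left_smooth {u : ℂ → R4} {z₀ : ℂ} {r : ℝ} (hr : 0 < r)
    (hu : ContDiffOn ℝ ∞ u (ball z₀ r)) (hinj : Function.Injective (fderiv ℝ u z₀)) :
    ∃ (P : R4 → ℂ) (U : Set R4), IsOpen U ∧ u z₀ ∈ U ∧ ContDiffOn ℝ ∞ P U ∧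
      (∀ y ∈ U, P y ∈ ball z₀ r) ∧ P (u z₀) = z₀ ∧
      ∃ δ > 0, δ ≤ r ∧ ∀ z ∈ ball z₀ δ, u z ∈ U ∧ P (u z) = z := by
  have hz₀ : z₀ ∈ ball z₀ r := mem_ball_self hr
  have huat : ∀ z ∈ ball z₀ r, ContDiffAt ℝ ∞ u z := fun z hz =>
    hu.contDiffAt (isOpen_ball.mem_nhds hz)
  obtain ⟨S, hS⟩ := (fderiv ℝ u z₀).toLinearMap.exists_leftInverse_of_injective
    (LinearMap.ker_eq_bot.2 hinj)
  set S' : R4 →L[ℝ] ℂ := LinearMap.toContinuousLinearMap S with hS'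
  have hST : ∀ v, S' (fderiv ℝ u z₀ v) = v := fun v => LinearMap.congr_fun hS v
  set f : ℂ → ℂ := fun v => S' (u v) with hf
  have hfat : ∀ z ∈ ball z₀ r, ContDiffAt ℝ ∞ f z := fun z hz =>
    S'.contDiff.contDiffAt.comp _ (huat z hz)
  have hfon : ContDiffOn ℝ ∞ f (ball z₀ r) := fun z hz => (hfat z hz).contDiffWithinAt
  have hfd : HasFDerivAt f ((ContinuousLinearEquiv.refl ℝ ℂ : ℂ ≃L[ℝ] ℂ) : ℂ →L[ℝ] ℂ) z₀ := by
    have hd : HasFDerivAt u (fderiv ℝ u z₀) z₀ :=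
      ((huat z₀ hz₀).differentiableAt (by simp)).hasFDerivAt
    have h1 := S'.hasFDerivAt.comp z₀ hd
    have h2 : S'.comp (fderiv ℝ u z₀) =
        ((ContinuousLinearEquiv.refl ℝ ℂ : ℂ ≃L[ℝ] ℂ) : ℂ →L[ℝ] ℂ) :=
      ContinuousLinearMap.ext fun v => hST v
    rw [h2] at h1
    exact h1
  have hst : HasStrictFDerivAt f
      ((ContinuousLinearEquiv.refl ℝ ℂ : ℂ ≃L[ℝ] ℂ) : ℂ →L[ℝ] ℂ) z₀ :=
    (hfat z₀ hz₀).hasStrictFDerivAt' hfd (by simp)
  set e := hst.toOpenPartialHomeomorph f with he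
  have hef : ∀ z, e z = f z := fun z => rfl
  have hsrc : z₀ ∈ e.source := hst.mem_toOpenPartialHomeomorph_source
  -- the set where the derivative is invertible
  set W : Set ℂ := ball z₀ r ∩ (fderiv ℝ f) ⁻¹' (range ((↑) : (ℂ ≃L[ℝ] ℂ) → ℂ →L[ℝ] ℂ)) with hW
  have hcont : ContinuousOn (fderiv ℝ f) (ball z₀ r) := by
    exact hfon.continuousOn_fderiv_of_isOpen isOpen_ball (by simp)
  have hWo : IsOpen W := hcont.isOpen_inter_preimage isOpen_ball ContinuousLinearEquiv.isOpen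
  have hWz : z₀ ∈ W := ⟨hz₀, ⟨ContinuousLinearEquiv.refl ℝ ℂ, hfd.fderiv.symm⟩⟩
  set T : Set ℂ := e.target ∩ e.symm ⁻¹' W with hT
  have hTo : IsOpen T := e.symm.isOpen_inter_preimage hWo
  have hTs : ∀ t ∈ T, ContDiffAt ℝ ∞ e.symm t := by
    intro t ht
    obtain ⟨h1, e', h2⟩ := ht.2
    refine e.contDiffAt_symm (f₀' := e') ht.1 ?_ (hfat _ h1)
    rw [h2]
    exact ((hfat _ h1).differentiableAt (by simp)).hasFDerivAt
  have hfz : e.symm (f z₀) = z₀ := e.left_inv hsrc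
  have hTz : f z₀ ∈ T := by
    refine ⟨e.map_source hsrc, ?_⟩
    show e.symm (f z₀) ∈ W
    rw [hfz]
    exact hWz
  have hopen : IsOpen (S' ⁻¹' T) := hTo.preimage S'.continuous
  -- the discs
  have h3 : ∀ᶠ z in 𝓝 z₀, z ∈ e.source ∩ ball z₀ r ∧ u z ∈ S' ⁻¹' T := by
    refine ((e.open_source.inter isOpen_ball).mem_nhds ⟨hsrc, hz₀⟩ |> fun h => ?_)
    exact Filter.Eventually.and h
      ((huat z₀ hz₀).continuousAt.eventually (hopen.mem_nhds hTz))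
  obtain ⟨δ, hδ, h4⟩ := Metric.eventually_nhds_iff_ball.1 h3
  refine ⟨fun y => e.symm (S' y), S' ⁻¹' T, hopen, hTz, ?_, fun y hy => hy.2.1, hfz,
    min δ r, lt_min hδ hr, min_le_right _ _, fun z hz => ?_⟩
  · intro y hy
    exact ((hTs _ hy).comp y S'.contDiff.contDiffAt).contDiffWithinAt
  · have h5 := h4 z (ball_subset_ball (min_le_left _ _) hz)
    exact ⟨h5.2, e.left_inv h5.1.1⟩

end Vale.Agent.P247.H383.VF
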