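import Vale.Agent.P247.H383.VF.Left

/-!
# P247, layer C: the local solution of the equation for the normal field
-/

open scoped ContDiff Topology
open Set MeasureTheory Filter Metric

noncomputable section

namespace Vale.Agent.P247.H383.VF

open Vale.Agent.P247.H74 Vale.Agent.P247.H574 Vale.Agent.P247.H710

/-- the tangent vectors of `K` at `x` -/
def Tan (K : Set R4) (x : R4) : Set R4 :=
  {τ | ∃ (v : ℂ → R4) (T : ℂ →L[ℝ] R4), HasFDerivAt v T 0 ∧ v 0 = x ∧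
    (∀ᶠ z in 𝓝 (0 : ℂ), v z ∈ K) ∧ T 1 = τ}

/-- the linear map `w ↦ Om D x a (w b)`, for the complex structure at `q` -/
def Lam (D : Data) (q b x a : R4) : ℂ →L[ℝ] ℂ := (CE.OmL D x a).comp ((CE.cmB D q).flip b)

theorem Lam_apply (D : Data) (q b x a : R4) (w : ℂ) :
    Lam D q b x a w = Om D x a (cm D q w b) := by
  rw [Lam, ContinuousLinearMap.comp_apply, CE.OmL_apply, ContinuousLinearMap.flip_apply,
    CE.cmB_apply]

/-- the vector field near a point of an immersed disc -/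
theorem loc_field (D : Data) {u : ℂ → R4} {z₀ : ℂ} {r : ℝ} (hr : 0 < r)
    (hu : ContDiffOn ℝ ∞ u (ball z₀ r)) (himm : fderiv ℝ u z₀ 1 ≠ 0)
    (hhol : fderiv ℝ u z₀ Complex.I = D.J (u z₀) (fderiv ℝ u z₀ 1))
    {h : ℂ → ℂ} (hh : DifferentiableOn ℂ h (ball z₀ r)) (q b : R4)
    (hΛ : ∀ w, Om D (u z₀) (fderiv ℝ u z₀ 1) (cm D q w b) = 0 → w = 0) :
    ∃ (U : Set R4) (w : R4 → ℂ) (P : R4 → ℂ), IsOpen U ∧ u z₀ ∈ U ∧ ContDiffOn ℝ ∞ w U ∧
      ContDiffOn ℝ ∞ P U ∧ (∀ y ∈ U, P y ∈ ball z₀ r) ∧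
      (∃ δ > 0, δ ≤ r ∧ ∀ z ∈ ball z₀ δ, P (u z) = z) ∧
      ∀ y ∈ U, u (P y) = y → Om D y (fderiv ℝ u (P y) 1) (cm D q (w y) b) = h (P y) := by
  have hz₀ : z₀ ∈ ball z₀ r := mem_ball_self hr
  obtain ⟨P, U, hUo, hUz, hPs, hPr, hPz, δ, hδ, hδr, hPu⟩ :=
    exists_left_smooth hr hu (H558.VF.fderiv_inj hhol himm)
  -- smoothness of the derivative
  have hfd : ContDiffOn ℝ ∞ (fun z => fderiv ℝ u z) (ball z₀ r) :=
    hu.fderiv_of_isOpen isOpen_ball (by simp)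
  have hdu : ContDiffOn ℝ ∞ (fun z => fderiv ℝ u z 1) (ball z₀ r) :=
    hfd.clm_apply contDiffOn_const
  have hOm : ContDiffOn ℝ ∞ (fun z => CE.OmL D (u z)) (ball z₀ r) :=
    (CE.OmL_smooth D).comp_contDiffOn hu
  have hOa : ContDiffOn ℝ ∞ (fun z => CE.OmL D (u z) (fderiv ℝ u z 1)) (ball z₀ r) :=
    hOm.clm_apply hdu
  set Λ : ℂ → ℂ →L[ℝ] ℂ := fun z => Lam D q b (u z) (fderiv ℝ u z 1) with hΛdef
  have hΛs : ContDiffOn ℝ ∞ Λ (ball z₀ r) := hOa.clm_comp contDiffOn_const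
  have hinj : Function.Injective (Λ z₀) := by
    rw [injective_iff_map_eq_zero]
    intro w hw
    apply hΛ
    rw [← Lam_apply]
    exact hw
  obtain ⟨e, he⟩ := exists_equiv (Λ z₀) hinj
  have hhs : ContDiffOn ℝ ∞ h (ball z₀ r) :=
    (hh.contDiffOn isOpen_ball).restrict_scalars ℝ
  -- the set where `Λ` is invertible
  set W : Set ℂ := ball z₀ r ∩ Λ ⁻¹' (range ((↑) : (ℂ ≃L[ℝ] ℂ) → ℂ →L[ℝ] ℂ)) with hW
  have hWo : IsOpen W :=
    hΛs.continuousOn.isOpen_inter_preimage isOpen_ball ContinuousLinearEquiv.isOpen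
  have hWz : z₀ ∈ W := ⟨hz₀, ⟨e, he⟩⟩
  have hws : ContDiffOn ℝ ∞ (fun z => ContinuousLinearMap.inverse (Λ z) (h z)) W := by
    intro z hz
    obtain ⟨hz1, e', he'⟩ := hz
    have h1 : ContDiffAt ℝ ∞ Λ z := hΛs.contDiffAt (isOpen_ball.mem_nhds hz1)
    have h2 : ContDiffAt ℝ ∞ (ContinuousLinearMap.inverse : (ℂ →L[ℝ] ℂ) → ℂ →L[ℝ] ℂ) (Λ z) := by
      rw [← he']
      exact contDiffAt_map_inverse e'
    have h3 : ContDiffAt ℝ ∞ (fun z => ContinuousLinearMap.inverse (Λ z)) z := h2.comp z h1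
    have h4 : ContDiffAt ℝ ∞ h z := hhs.contDiffAt (isOpen_ball.mem_nhds hz1)
    exact (h3.clm_apply h4).contDiffWithinAt
  have hPc : IsOpen (U ∩ P ⁻¹' W) := hPs.continuousOn.isOpen_inter_preimage hUo hWo
  refine ⟨U ∩ P ⁻¹' W, fun y => ContinuousLinearMap.inverse (Λ (P y)) (h (P y)), P, hPc, ?_, ?_,
    hPs.mono inter_subset_left, fun y hy => hPr y hy.1, ⟨δ, hδ, hδr, fun z hz => (hPu z hz).2⟩, ?_⟩
  · refine ⟨hUz, ?_⟩
    show P (u z₀) ∈ W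
    rw [hPz]
    exact hWz
  · exact hws.comp (hPs.mono inter_subset_left) fun y hy => hy.2
  · intro y hy huy
    obtain ⟨-, e', he'⟩ := hy.2
    have h1 : Λ (P y) (ContinuousLinearMap.inverse (Λ (P y)) (h (P y))) = h (P y) := by
      rw [← he', ContinuousLinearMap.inverse_equiv]
      exact e'.apply_symm_apply _
    have h2 := Lam_apply D q b (u (P y)) (fderiv ℝ u (P y) 1)
      (ContinuousLinearMap.inverse (Λ (P y)) (h (P y)))
    have h3 : Λ (P y) (ContinuousLinearMap.inverse (Λ (P y)) (h (P y))) =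
        Om D y (fderiv ℝ u (P y) 1)
          (cm D q (ContinuousLinearMap.inverse (Λ (P y)) (h (P y))) b) := by
      refine h2.trans ?_
      rw [huy]
    exact h3.symm.trans h1

/-- the local solution: the equation holds on all tangent vectors of `K` -/
theorem loc_tan (D : Data) {K : Set R4} {θ : R4 → R4 →L[ℝ] ℂ} {u : ℂ → R4} {z₀ : ℂ} {r : ℝ}
    (hr : 0 < r) (hu : ContDiffOn ℝ ∞ u (ball z₀ r)) {h : ℂ → ℂ}
    (hh : DifferentiableOn ℂ h (ball z₀ r))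
    (h6 : ∀ z ∈ ball z₀ r, fderiv ℝ u z 1 ≠ 0 ∧
      fderiv ℝ u z Complex.I = D.J (u z) (fderiv ℝ u z 1) ∧
      θ (u z) (fderiv ℝ u z 1) = h z ∧ θ (u z) (fderiv ℝ u z Complex.I) = Complex.I * h z)
    (hcov : ∀ δ > 0, ∃ ε > 0, ∀ y ∈ ball (u z₀) ε, y ∈ K → ∃ z ∈ ball z₀ δ, u z = y) (q b : R4)
    (hΛ : ∀ w, Om D (u z₀) (fderiv ℝ u z₀ 1) (cm D q w b) = 0 → w = 0) :
    ∃ (U : Set R4) (w : R4 → ℂ), IsOpen U ∧ u z₀ ∈ U ∧ ContDiffOn ℝ ∞ w U ∧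
      ∀ y ∈ U, ∀ τ ∈ Tan K y, Om D y τ (cm D q (w y) b) = θ y τ := by
  have hz₀ : z₀ ∈ ball z₀ r := mem_ball_self hr
  obtain ⟨U, w, P, hUo, hUz, hws, hPs, hPr, ⟨δ, hδ, hδr, hPu⟩, hloc⟩ :=
    loc_field D hr hu (h6 z₀ hz₀).1 (h6 z₀ hz₀).2.1 hh q b hΛ
  obtain ⟨ε, hε, hcov'⟩ := hcov δ hδ
  have hK : ∀ y ∈ U ∩ ball (u z₀) ε, y ∈ K → u (P y) = y := by
    intro y hy hyK
    obtain ⟨z, hz, hzy⟩ := hcov' y hy.2 hyK
    rw [← hzy, hPu z hz]
  refine ⟨U ∩ ball (u z₀) ε, w, hUo.inter isOpen_ball, ⟨hUz, mem_ball_self hε⟩,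
    hws.mono inter_subset_left, ?_⟩
  rintro y hy τ ⟨v, T, hvT, hv0, hvK, hT⟩
  have hyK : y ∈ K := by
    have := hvK.self_of_nhds
    rwa [hv0] at this
  have huy := hK y hy hyK
  have hPy := hPr y hy.1
  have e1 := hloc y hy.1 huy
  obtain ⟨-, e2, e3, e4⟩ := h6 (P y) hPy
  rw [huy] at e2 e3 e4
  -- the tangent vector
  have hvU : ∀ᶠ z in 𝓝 (0 : ℂ), v z ∈ U ∩ ball (u z₀) ε := by
    have h1 : ContinuousAt v 0 := hvT.continuousAt
    apply h1.eventually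
    rw [hv0]
    exact (hUo.inter isOpen_ball).mem_nhds hy
  have hcomp : (fun z => u (P (v z))) =ᶠ[𝓝 (0 : ℂ)] v := by
    filter_upwards [hvU, hvK] with z h1 h2
    exact hK _ h1 h2
  have hP : HasFDerivAt P (fderiv ℝ P y) (v 0) := by
    rw [hv0]
    exact ((hPs.contDiffAt (hUo.mem_nhds hy.1)).differentiableAt (by simp)).hasFDerivAt
  have hPv : HasFDerivAt (fun z => P (v z)) ((fderiv ℝ P y).comp T) 0 := hP.comp 0 hvT
  have hu' : HasFDerivAt u (fderiv ℝ u (P y)) (P (v 0)) := by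
    rw [hv0]
    exact ((hu.contDiffAt (isOpen_ball.mem_nhds hPy)).differentiableAt (by simp)).hasFDerivAt
  have huv : HasFDerivAt (fun z => u (P (v z))) ((fderiv ℝ u (P y)).comp
      ((fderiv ℝ P y).comp T)) 0 := hu'.comp 0 hPv
  have hTT : T = (fderiv ℝ u (P y)).comp ((fderiv ℝ P y).comp T) :=
    (hvT.congr_of_eventuallyEq hcomp).unique huv
  set ζ : ℂ := fderiv ℝ P y τ with hζ
  have hτ : τ = fderiv ℝ u (P y) ζ := by
    rw [hζ, ← hT]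
    exact congrArg (fun L : ℂ →L[ℝ] R4 => L 1) hTT
  have hζ2 : ζ = ζ.re • (1 : ℂ) + ζ.im • Complex.I := by
    apply Complex.ext <;> simp
  have hτ2 : τ = ζ.re • fderiv ℝ u (P y) 1 + ζ.im • fderiv ℝ u (P y) Complex.I := by
    rw [hτ]
    conv_lhs => rw [hζ2]
    rw [map_add, map_smul, map_smul]
  have hτ3 : τ = cm D y ζ (fderiv ℝ u (P y) 1) := by
    rw [hτ2, e2]
    rfl
  have hζ3 : (ζ.re : ℂ) + ζ.im * Complex.I = ζ := Complex.re_add_im ζ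
  have lhs : Om D y τ (cm D q (w y) b) = ζ * h (P y) := by
    rw [hτ3, CE.cm_Om, e1]
  have rhs : θ y τ = ζ * h (P y) := by
    rw [hτ2, map_add, map_smul, map_smul, e3, e4, Complex.real_smul, Complex.real_smul]
    linear_combination h (P y) * hζ3
  rw [lhs, rhs]

end Vale.Agent.P247.H383.VF
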