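import Vale.Agent.P247.H383.VF.Loc
import Vale.Agent.P247.H383.VF.Glue

/-!
# P247, layer C: `VF2`
-/

open scoped ContDiff Topology
open Set MeasureTheory Filter Metric

noncomputable section

namespace Vale.Agent.P247.H383.VF

open Vale.Agent.P247.H74 Vale.Agent.P247.H574 Vale.Agent.P247.H710

/-- shortcut instances -/
abbrev g1G : NormedAddCommGroup (R4 →L[ℝ] ℂ) := ContinuousLinearMap.toNormedAddCommGroup

abbrev g1S : NormedSpace ℝ (R4 →L[ℝ] ℂ) := ContinuousLinearMap.toNormedSpace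

attribute [local instance] g1G g1S

abbrev g2G : NormedAddCommGroup (R4 →L[ℝ] R4 →L[ℝ] ℂ) :=
  ContinuousLinearMap.toNormedAddCommGroup

attribute [local instance] g2G

section

variable {K : Set R4}

theorem Tan_sub (hKt : ∀ (k : Fin 4 → ℤ) x, x ∈ K → tr k x ∈ K) (k : Fin 4 → ℤ) (x : R4) :
    Tan K x ⊆ Tan K (tr k x) := by
  rintro τ ⟨v, T, h1, h2, h3, h4⟩
  refine ⟨fun z => tr k (v z), T, ?_, congrArg (tr k) h2, ?_, h4⟩
  · have e1 : (fun z => tr k (v z)) = fun z => v z + fun i => (k i : ℝ) := by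
      funext z; exact tr_sub k (v z)
    rw [e1]
    exact h1.add_const _
  · filter_upwards [h3] with z hz
    exact hKt _ _ hz

theorem Tan_tr (hKt : ∀ (k : Fin 4 → ℤ) x, x ∈ K → tr k x ∈ K) (k : Fin 4 → ℤ) (x : R4) :
    Tan K (tr k x) = Tan K x := by
  apply Subset.antisymm _ (Tan_sub hKt k x)
  have := Tan_sub hKt (-k) (tr k x)
  rwa [tr_neg_cancel'] at this

theorem out_tr (hKt : ∀ (k : Fin 4 → ℤ) x, x ∈ K → tr k x ∈ K) {P : Finset R4} {N : R4 → ℕ}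
    {u : ∀ p, Fin (N p) → ℂ → R4} {ρ : ℝ} (k : Fin 4 → ℤ) (x : R4) (hx : x ∈ Out K P N u ρ) :
    tr k x ∈ Out K P N u ρ := by
  refine ⟨hKt _ _ hx.1, fun p hp l z hz j h => hx.2 p hp l z hz (-k + j) ?_⟩
  rw [← tr_tr, ← h, tr_neg_cancel']

/-- the admissible values at `x` -/
def tt (D : Data) (K : Set R4) (θ : R4 → R4 →L[ℝ] ℂ) (P : Finset R4) (N : R4 → ℕ)
    (u : ∀ p, Fin (N p) → ℂ → R4) (b : R4 → R4) (ρ : ℝ) (x : R4) : Set R4 :=
  {v | (∀ p ∈ P, ∀ l, ∀ z ∈ closedBall (0 : ℂ) ρ, ∀ k : Fin 4 → ℤ, x = tr k (u p l z) →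
      ∃ w : ℂ, v = cm D p w (b p)) ∧
    (x ∈ Out K P N u ρ → ∀ τ ∈ Tan K x, Om D x τ v = θ x τ)}

theorem tt_convex (D : Data) (θ : R4 → R4 →L[ℝ] ℂ) (P : Finset R4) (N : R4 → ℕ)
    (u : ∀ p, Fin (N p) → ℂ → R4) (b : R4 → R4) (ρ : ℝ) (x : R4) :
    Convex ℝ (tt D K θ P N u b ρ x) := by
  intro v hv v' hv' s s' _ _ hss
  refine ⟨fun p hp l z hz k hx => ?_, fun hx τ hτ => ?_⟩
  · obtain ⟨w, hw⟩ := hv.1 p hp l z hz k hx
    obtain ⟨w', hw'⟩ := hv'.1 p hp l z hz k hx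
    refine ⟨s • w + s' • w', ?_⟩
    rw [hw, hw']
    simp only [← CE.cmB_apply, map_add, map_smul, add_apply, smul_apply]
  · have e1 := hv.2 hx τ hτ
    have e2 := hv'.2 hx τ hτ
    have e3 : (s : ℂ) + s' = 1 := by exact_mod_cast hss
    rw [CE.Om_add, CE.Om_rsmul, CE.Om_rsmul, e1, e2]
    linear_combination θ x τ * e3

theorem tt_tr {D : Data} (hKt : ∀ (k : Fin 4 → ℤ) x, x ∈ K → tr k x ∈ K)
    {θ : R4 → R4 →L[ℝ] ℂ} (hθ : ∀ (k : Fin 4 → ℤ) x, θ (tr k x) = θ x) (P : Finset R4)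
    (N : R4 → ℕ) (u : ∀ p, Fin (N p) → ℂ → R4) (b : R4 → R4) (ρ : ℝ) (k : Fin 4 → ℤ) (x : R4) :
    tt D K θ P N u b ρ (tr k x) = tt D K θ P N u b ρ x := by
  have hOm : ∀ (k : Fin 4 → ℤ) x a v, Om D (tr k x) a v = Om D x a v := fun k x a v =>
    (OmProps D).2.1 k x a v
  have key : ∀ (k : Fin 4 → ℤ) x, tt D K θ P N u b ρ x ⊆ tt D K θ P N u b ρ (tr k x) := by
    intro k x v hv
    refine ⟨fun p hp l z hz j hx => ?_, fun hx τ hτ => ?_⟩
    · refine hv.1 p hp l z hz (-k + j) ?_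
      rw [← tr_tr, ← hx, tr_neg_cancel']
    · rw [hOm, hθ]
      refine hv.2 ?_ τ (by rwa [Tan_tr hKt] at hτ)
      have := out_tr hKt (-k) _ hx
      rwa [tr_neg_cancel'] at this
  apply Subset.antisymm _ (key k x)
  have := key (-k) (tr k x)
  rwa [tr_neg_cancel'] at this

/-- translation of local sections -/
theorem hloc_tr {t : R4 → Set R4} (htr : ∀ (k : Fin 4 → ℤ) x, t (tr k x) = t x) {x : R4}
    (h : ∃ U ∈ 𝓝 x, ∃ g : R4 → R4, ContDiffOn ℝ ∞ g U ∧ ∀ y ∈ U, g y ∈ t y) (k : Fin 4 → ℤ) :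
    ∃ U ∈ 𝓝 (tr k x), ∃ g : R4 → R4, ContDiffOn ℝ ∞ g U ∧ ∀ y ∈ U, g y ∈ t y := by
  obtain ⟨U, hU, g, hg, hgt⟩ := h
  refine ⟨(fun y => tr (-k) y) ⁻¹' U, ?_, fun y => g (tr (-k) y), ?_, fun y hy => ?_⟩
  · apply (tr_smooth (-k)).continuous.continuousAt.preimage_mem_nhds
    rw [tr_neg_cancel']
    exact hU
  · exact hg.comp (tr_smooth (-k)).contDiffOn fun y hy => hy
  · rw [← htr (-k) y]
    exact hgt _ hy

/-- transversality near the point -/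
theorem lam_small {D : Data} {x : R4} {N : ℕ} {u : Fin N → ℂ → R4} {ε : ℝ}
    (hB : Brs D K x N u ε) {l : Fin N} {b : R4} (hT : H58.LW.Trans D x (u l) b) :
    ∃ s > 0, ∀ z : ℂ, z ≠ 0 → ‖z‖ < s → ∀ w,
      Om D (u l z) (fderiv ℝ (u l) z 1) (cm D x w b) = 0 → w = 0 := by
  obtain ⟨c, hc, hev⟩ := hT
  set C : ℝ := ‖(CE.cmB D x).flip b‖ + 1 with hC
  have hCpos : 0 < C := by positivity
  have hcu : ContinuousAt (u l) 0 := (brs_cont hB l).continuousAt (ball_mem_nhds _ (by norm_num))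
  have hcO : ContinuousAt (fun z => CE.OmL D (u l z)) 0 :=
    ((CE.OmL_smooth D).continuous.continuousAt).comp hcu
  have h1 : ∀ᶠ z in 𝓝 (0 : ℂ), ‖CE.OmL D (u l z) - CE.OmL D x‖ < c / C := by
    have h2 : ContinuousAt (fun z => ‖CE.OmL D (u l z) - CE.OmL D x‖) 0 :=
      (hcO.sub continuousAt_const).norm
    refine h2.eventually_lt continuousAt_const ?_
    rw [hB.zero l, sub_self, norm_zero]
    positivity
  rw [eventually_nhdsWithin_iff] at hev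
  obtain ⟨s, hs, h2⟩ := Metric.eventually_nhds_iff_ball.1 (hev.and h1)
  refine ⟨min s 1, lt_min hs one_pos, fun z h0 hz w hw => ?_⟩
  obtain ⟨h3, h4⟩ := h2 z (by rw [mem_ball_zero_iff]; exact hz.trans_le (min_le_left _ _))
  have h5 := h3 h0
  have hz2 : z ∈ ball (0 : ℂ) 2 := by
    rw [mem_ball_zero_iff]
    have := hz.trans_le (min_le_right _ _)
    linarith
  set a := fderiv ℝ (u l) z 1 with ha
  have ha0 : 0 < ‖a‖ := norm_pos_iff.2 (hB.imm l z hz2 h0)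
  by_contra hw0
  have hwp : 0 < ‖w‖ := norm_pos_iff.2 hw0
  have e1 : w * Om D x a b = -((CE.OmL D (u l z) - CE.OmL D x) a (cm D x w b)) := by
    rw [sub_apply, sub_apply, CE.OmL_apply, CE.OmL_apply, hw, CE.Om_cm]
    ring
  have e2 : ‖cm D x w b‖ ≤ C * ‖w‖ := by
    have h6 : cm D x w b = (CE.cmB D x).flip b w := by
      rw [ContinuousLinearMap.flip_apply, CE.cmB_apply]
    rw [h6]
    refine (ContinuousLinearMap.le_opNorm _ _).trans ?_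
    exact mul_le_mul_of_nonneg_right (by rw [hC]; linarith) hwp.le
  have e3 : ‖w‖ * ‖Om D x a b‖ ≤ ‖CE.OmL D (u l z) - CE.OmL D x‖ * ‖a‖ * (C * ‖w‖) := by
    rw [← norm_mul, e1, norm_neg]
    refine (ContinuousLinearMap.le_opNorm₂ _ _ _).trans ?_
    exact mul_le_mul_of_nonneg_left e2 (by positivity)
  have e4 : ‖CE.OmL D (u l z) - CE.OmL D x‖ * C < c := by
    rwa [lt_div_iff₀ hCpos] at h4
  have e5 : ‖w‖ * (c * ‖a‖) ≤ ‖w‖ * ‖Om D x a b‖ := mul_le_mul_of_nonneg_left h5 hwp.le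
  have e6 : (‖CE.OmL D (u l z) - CE.OmL D x‖ * C) * (‖a‖ * ‖w‖) < c * (‖a‖ * ‖w‖) :=
    mul_lt_mul_of_pos_right e4 (by positivity)
  nlinarith

end

end Vale.Agent.P247.H383.VF
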