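import Vale.Agent.P247.H383.VF.Main

/-!
# P247, layer C: `VF2`, the normal vector field
-/

open scoped ContDiff Topology
open Set MeasureTheory Filter Metric

noncomputable section

namespace Vale.Agent.P247.H383.VF

open Vale.Agent.P247.H74 Vale.Agent.P247.H574 Vale.Agent.P247.H710

attribute [local instance] g1G g1S g2G

theorem cm_smooth (D : Data) (q b : R4) {w : R4 → ℂ} {U : Set R4} (hw : ContDiffOn ℝ ∞ w U) :
    ContDiffOn ℝ ∞ (fun y => cm D q (w y) b) U := by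
  have h1 : (fun y => cm D q (w y) b) = fun y => (CE.cmB D q).flip b (w y) := by
    funext y
    rw [ContinuousLinearMap.flip_apply, CE.cmB_apply]
  rw [h1]
  exact ((CE.cmB D q).flip b).contDiff.comp_contDiffOn hw

/-- **VF2** -/
theorem VF2 : VF2_statement := by
  intro D K θ hKc hKt _ hθ P N u ε b h r hP hr hPd hh hreg
  have hB : ∀ p ∈ P, Brs D K p (N p) (u p) (ε p) := fun p hp => (hP p hp).2.1
  obtain ⟨r₁, hr₁, hr₁1, g1, ⟨η, hη, g2⟩, g3, g4, g5⟩ := discs P N u ε hB hKt hPd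
  obtain ⟨r₂, hr₂, hclosed⟩ := out_closed hKc P N u ε hB hKt hPd
  have hlam : ∀ᶠ ρ in 𝓝[>] (0 : ℝ), ∀ p ∈ P, ∀ l, ∀ z : ℂ, z ≠ 0 → ‖z‖ ≤ ρ → ∀ w,
      Om D (u p l z) (fderiv ℝ (u p l) z 1) (cm D p w (b p)) = 0 → w = 0 := by
    refine (Filter.eventually_all_finset P).2 fun p hp => Filter.eventually_all.2 fun l => ?_
    obtain ⟨s, hs, h1⟩ := lam_small (hB p hp) ((hP p hp).2.2 l)
    filter_upwards [Ioo_mem_nhdsGT hs] with ρ hρ z h0 hz
    exact h1 z h0 (hz.trans_lt hρ.2)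
  filter_upwards [hlam, Ioo_mem_nhdsGT hr₁, Ioo_mem_nhdsGT hr₂, Ioo_mem_nhdsGT hr] with ρ hlam
    hρ1 hρ2 hρ3
  have hρ0 : 0 < ρ := hρ1.1
  have hθt : ∀ (k : Fin 4 → ℤ) x, θ (tr k x) = θ x := hθ.per
  set t : R4 → Set R4 := tt D K θ P N u b ρ with ht
  have htr : ∀ (k : Fin 4 → ℤ) x, t (tr k x) = t x := tt_tr hKt hθt P N u b ρ
  have hsub1 : ∀ z : ℂ, ‖z‖ ≤ ρ → z ∈ ball (0 : ℂ) r₁ := fun z hz => by
    rw [mem_ball_zero_iff]; exact hz.trans_lt hρ1.2
  have hsub2 : ∀ z : ℂ, ‖z‖ ≤ ρ → z ∈ ball (0 : ℂ) 2 := fun z hz => by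
    rw [mem_ball_zero_iff]; have := hρ1.2; linarith
  -- local solutions
  have hloc : ∀ x, ∃ U ∈ 𝓝 x, ∃ g : R4 → R4, ContDiffOn ℝ ∞ g U ∧ ∀ y ∈ U, g y ∈ t y := by
    intro x
    by_cases hxK : x ∈ K
    swap
    · refine ⟨Kᶜ, hKc.isOpen_compl.mem_nhds hxK, fun _ => 0, contDiffOn_const, fun y hy => ?_⟩
      exact ⟨fun p _ l z _ k _ => ⟨0, (CE.cm_zero D p (b p)).symm⟩, fun hy' => absurd hy'.1 hy⟩
    by_cases hxC : x ∈ {x | ∃ p ∈ P, ∃ l, ∃ z : ℂ, ‖z‖ ≤ ρ ∧ ∃ k : Fin 4 → ℤ, x = tr k (u p l z)}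
    · obtain ⟨p, hp, l, z₀, hz₀, k, hk⟩ := hxC
      rw [hk]
      refine hloc_tr htr ?_ k
      by_cases h0 : z₀ = 0
      · -- the special point
        rw [h0, (hB p hp).zero l]
        obtain ⟨e, he, h6⟩ := g5 p hp ρ hρ0
        refine ⟨ball p e, ball_mem_nhds p he, fun _ => 0, contDiffOn_const, fun y hy => ?_⟩
        refine ⟨fun p _ l z _ k _ => ⟨0, (CE.cm_zero D p (b p)).symm⟩, fun hy' => ?_⟩
        exfalso
        obtain ⟨j, w, hw, hwy⟩ := h6 0 y hy'.1 (by rw [tr_zero]; exact hy)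
        exact hy'.2 p hp j w (by rwa [mem_ball_zero_iff]) 0 hwy.symm
      · -- a point of the disc
        obtain ⟨s, hs0, hs1, hs2, hs3⟩ : ∃ s > 0, s ≤ ‖z₀‖ ∧ ‖z₀‖ + s ≤ r ∧ s ≤ 1 := by
          have h1 := hρ3.2
          refine ⟨min ‖z₀‖ (min (r - ‖z₀‖) 1),
            lt_min (norm_pos_iff.2 h0) (lt_min (by linarith) one_pos), min_le_left _ _, ?_,
            (min_le_right _ _).trans (min_le_right _ _)⟩
          have := (min_le_right ‖z₀‖ (min (r - ‖z₀‖) 1)).trans (min_le_left _ _)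
          linarith
        have hin : ∀ z ∈ ball z₀ s, z ≠ 0 ∧ z ∈ ball (0 : ℂ) r ∧ z ∈ ball (0 : ℂ) 2 := by
          intro z hz
          rw [mem_ball, dist_eq_norm] at hz
          have h1 : ‖z‖ ≤ ‖z₀‖ + ‖z - z₀‖ := by
            calc ‖z‖ = ‖z₀ + (z - z₀)‖ := by rw [add_sub_cancel]
              _ ≤ _ := norm_add_le _ _
          refine ⟨?_, ?_, ?_⟩
          · intro h2
            rw [h2, zero_sub, norm_neg] at hz
            linarith
          · rw [mem_ball_zero_iff]; linarith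
          · rw [mem_ball_zero_iff]
            have := hρ1.2
            linarith
        obtain ⟨U, w, hUo, hUz, hws, hUt⟩ := loc_tan D (K := K) (θ := θ) (u := u p l) (h := h p l)
          hs0 (((hB p hp).disc l).smooth.mono fun z hz => (hin z hz).2.2)
          ((hh p hp l).1.mono fun z hz => (hin z hz).2.1)
          (fun z hz => ⟨(hB p hp).imm l z (hin z hz).2.2 (hin z hz).1,
            ((hB p hp).disc l).hol z (hin z hz).2.2,
            ((hh p hp l).2 z (hin z hz).2.1 (hin z hz).1).2.1,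
            ((hh p hp l).2 z (hin z hz).2.1 (hin z hz).1).2.2⟩)
          (by
            intro δ hδ
            obtain ⟨e, he, h6⟩ := g4 p hp l z₀ (hsub1 z₀ hz₀) h0 δ hδ
            refine ⟨e, he, fun y hy hyK => ?_⟩
            obtain ⟨z, hz, hzy⟩ := h6 0 y hyK (by rw [tr_zero]; exact hy)
            rw [tr_zero] at hzy
            exact ⟨z, by rw [mem_ball, dist_eq_norm]; exact hz, hzy⟩) p (b p)
          (hlam p hp l z₀ h0 hz₀)
        refine ⟨U ∩ ball (u p l z₀) η, (hUo.inter isOpen_ball).mem_nhds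
          ⟨hUz, mem_ball_self hη⟩, fun y => cm D p (w y) (b p),
          (cm_smooth D p (b p) hws).mono inter_subset_left, fun y hy => ?_⟩
        refine ⟨fun q hq j z hz k' hyk => ?_, fun _ τ hτ => hUt y hy.1 τ hτ⟩
        rw [mem_closedBall_zero_iff] at hz
        have h7 : dist (u p l z₀) (tr k' (u q j z)) < η := by
          rw [← hyk, dist_comm]
          exact hy.2
        obtain ⟨hpq, -⟩ := g2 p hp q hq l j z₀ (hsub1 z₀ hz₀) z (hsub1 z hz) k' h7
        rw [← hpq]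
        exact ⟨w y, rfl⟩
    · -- a regular point
      have hR : RegS D K θ x := by
        rcases hreg x hxK with h1 | ⟨p, hp, k, hk⟩
        · exact h1
        · exfalso
          apply hxC
          refine ⟨p, hp, ⟨0, (hB p hp).posN⟩, 0, by rw [norm_zero]; exact hρ0.le, k, ?_⟩
          rw [(hB p hp).zero, hk]
      obtain ⟨r', hr', u', h', h1, h2, -, h4, h5, h6⟩ := hR
      have h00 := h6 0 (mem_ball_self hr')
      obtain ⟨b', hb'⟩ := CE.exists_frame D x (fderiv ℝ u' 0 1) h00.2.1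
      obtain ⟨U, w, hUo, hUz, hws, hUt⟩ := loc_tan D (K := K) (θ := θ) (u := u') (h := h')
        (z₀ := 0) hr' h1 h5 (fun z hz => ⟨(h6 z hz).2.1, (h6 z hz).2.2.1, (h6 z hz).2.2.2.2.1,
          (h6 z hz).2.2.2.2.2⟩) (by rw [h2]; exact h4) x b' (by
            intro w hw
            rw [h2, CE.Om_cm] at hw
            exact (mul_eq_zero.1 hw).resolve_right hb')
      rw [h2] at hUz
      have hcl := (closed_discs P N u ε hB (ρ := ρ) (by have := hρ1.2; linarith)).isOpen_compl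
      refine ⟨U ∩ {x | ∃ p ∈ P, ∃ l, ∃ z : ℂ, ‖z‖ ≤ ρ ∧ ∃ k : Fin 4 → ℤ, x = tr k (u p l z)}ᶜ,
        (hUo.inter hcl).mem_nhds ⟨hUz, hxC⟩, fun y => cm D x (w y) b',
        (cm_smooth D x b' hws).mono inter_subset_left, fun y hy => ?_⟩
      refine ⟨fun q hq j z hz k' hyk => ?_, fun _ τ hτ => hUt y hy.1 τ hτ⟩
      exfalso
      apply hy.2
      exact ⟨q, hq, j, z, by rwa [mem_closedBall_zero_iff] at hz, k', hyk⟩
  obtain ⟨V, hVs, hVp, hVt⟩ := glue (t := t) (tt_convex D θ P N u b ρ) htr hloc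
  refine ⟨V, hVs, hVp, ?_, ?_, ?_⟩
  · intro p hp l z hz
    exact (hVt (u p l z)).1 p hp l z hz 0 (tr_zero _).symm
  · intro p hp l z hz
    rw [mem_sphere_zero_iff_norm] at hz
    have hz2 : z ∈ ball (0 : ℂ) 2 := hsub2 z hz.le
    have hz0 : z ≠ 0 := by
      intro h0
      rw [h0, norm_zero] at hz
      linarith
    have hout : u p l z ∈ Out K P N u ρ := by
      refine ⟨(hB p hp).mem l z hz2, fun q hq j w hw k heq => ?_⟩
      rw [mem_ball_zero_iff] at hw
      obtain ⟨hpq, hk⟩ := g2 p hp q hq l j z (hsub1 z hz.le) w (hsub1 w hw.le) k (by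
        rw [← heq, dist_self]; exact hη)
      subst hpq
      rw [hk, tr_zero] at heq
      rcases g3 p hp l j z (hsub1 z hz.le) w (hsub1 w hw.le) heq with h1 | h1
      · rw [h1.2] at hz
        linarith
      · exact hz0 h1.1
    have htan : fderiv ℝ (u p l) z 1 ∈ Tan K (u p l z) := by
      refine ⟨fun w => u p l (z + w), fderiv ℝ (u p l) z, ?_, by simp, ?_, rfl⟩
      · have h1 : HasFDerivAt (u p l) (fderiv ℝ (u p l) z) (z + 0) := by
          rw [add_zero]
          exact ((((hB p hp).disc l).smooth.contDiffAt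
            (isOpen_ball.mem_nhds hz2)).differentiableAt (by simp)).hasFDerivAt
        have h2 : HasFDerivAt (fun w : ℂ => z + w) (ContinuousLinearMap.id ℝ ℂ) 0 :=
          (hasFDerivAt_id (0 : ℂ)).const_add z
        have h3 := h1.comp (0 : ℂ) h2
        rwa [ContinuousLinearMap.comp_id] at h3
      · have h1 : ContinuousAt (fun w : ℂ => z + w) 0 := by fun_prop
        have h2 : ∀ᶠ w in 𝓝 (0 : ℂ), z + w ∈ ball (0 : ℂ) 2 := by
          apply h1.eventually
          show ball (0 : ℂ) 2 ∈ 𝓝 (z + 0)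
          rw [add_zero]
          exact isOpen_ball.mem_nhds hz2
        filter_upwards [h2] with w hw
        exact (hB p hp).mem l _ hw
    rw [(hVt (u p l z)).2 hout _ htan]
    refine ((hh p hp l).2 z ?_ hz0).2.1
    rw [mem_ball_zero_iff, hz]
    exact hρ3.2
  · refine H558.VF.dist_bound hVs.continuous hVp (hclosed ρ hρ2.1 hρ2.2) (fun x hx => hx.1)
      (fun k x hx => out_tr hKt k x hx) hKt ?_
    intro x hx
    have hR : RegS D K θ x := by
      rcases hreg x hx.1 with h1 | ⟨p, hp, k, hk⟩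
      · exact h1
      · exfalso
        refine hx.2 p hp ⟨0, (hB p hp).posN⟩ 0 (mem_ball_self hρ0) k ?_
        rw [(hB p hp).zero, hk]
    obtain ⟨r', hr', u', h', h1, h2, -, h4, h5, h6⟩ := hR
    have h00 := h6 0 (mem_ball_self hr')
    have hat : ContDiffAt ℝ ∞ u' 0 := h1.contDiffAt (ball_mem_nhds 0 hr')
    refine ⟨u', hat.of_le (by simp), h2, H558.VF.fderiv_inj h00.2.2.1 h00.2.1, ?_, h4⟩
    rintro ⟨c, hc⟩
    have htan : fderiv ℝ u' 0 1 ∈ Tan K x := by
      refine ⟨u', fderiv ℝ u' 0, (hat.differentiableAt (by simp)).hasFDerivAt, h2, ?_, rfl⟩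
      filter_upwards [ball_mem_nhds (0 : ℂ) hr'] with z hz
      exact (h6 z hz).1
    have e1 := (hVt x).2 hx _ htan
    have e2 : V x = cm D x c (fderiv ℝ u' 0 1) := by
      rw [← hc, H558.VF.fderiv_smul h00.2.2.1, h2]
      rfl
    have e3 : θ x (fderiv ℝ u' 0 1) = h' 0 := by
      have := h00.2.2.2.2.1
      rwa [h2] at this
    rw [e2, CE.Om_cm, CE.Om_self, mul_zero, e3] at e1
    exact h00.2.2.2.1 e1.symm

end Vale.Agent.P247.H383.VF
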